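import Mathlib

/-!
# P261: evaluation of power series in an adically complete ring
-/

open MvPowerSeries Finsupp

namespace Vale.Agent.P261Z.Ev

variable {σ τ R R' S S' : Type*} [CommRing R] [CommRing R'] [CommRing S] [CommRing S']

/-- the ideal of the variables -/
noncomputable abbrev IX (σ R : Type*) [CommRing R] : Ideal (MvPowerSeries σ R) :=
  Ideal.span (Set.range X)

theorem X_mem (i : σ) : (X i : MvPowerSeries σ R) ∈ IX σ R := Ideal.subset_span ⟨i, rfl⟩

theorem decomp [Fintype σ] (f : MvPowerSeries σ R) : ∃ g : σ → MvPowerSeries σ R,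
    f = C (constantCoeff f) + ∑ i, X i * g i ∧
      ∀ i d, coeff d (g i) = 0 ∨ coeff d (g i) = coeff (d + single i 1) f := by
  classical
  have h : ∀ m : σ →₀ ℕ, ∃ o : Option σ, m ≠ 0 → ∃ i, o = some i ∧ m i ≠ 0 := fun m => by
    by_cases h : m = 0
    · exact ⟨none, fun e => absurd h e⟩
    · obtain ⟨i, hi⟩ := Finsupp.ne_iff.1 h
      exact ⟨some i, fun _ => ⟨i, rfl, hi⟩⟩
  choose c hc using h
  obtain ⟨g, hg⟩ : ∃ g : σ → MvPowerSeries σ R, ∀ i d, coeff d (g i) =
      if c (d + single i 1) = some i then coeff (d + single i 1) f else 0 :=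
    ⟨fun i d => if c (d + single i 1) = some i then coeff (d + single i 1) f else 0,
      fun _ _ => rfl⟩
  refine ⟨g, ?_, fun i d => ?_⟩
  · ext m
    rw [map_add, map_sum, coeff_C]
    split_ifs with h
    · subst h
      simp only [coeff_zero_X_mul, Finset.sum_const_zero, add_zero]
      rfl
    obtain ⟨i, h1, h2⟩ := hc m h
    have h3 : single i 1 ≤ m := single_le_iff.2 (Nat.one_le_iff_ne_zero.2 h2)
    rw [zero_add, Finset.sum_eq_single i]
    · rw [X, coeff_monomial_mul, if_pos h3, one_mul, hg, tsub_add_cancel_of_le h3, if_pos h1]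
    · intro j _ hj
      rw [X, coeff_monomial_mul]
      split_ifs with h4
      · rw [one_mul, hg, tsub_add_cancel_of_le h4, h1, if_neg]
        exact fun e => hj (Option.some_injective _ e).symm
      · rfl
    · exact fun e => absurd (Finset.mem_univ i) e
  · rw [hg]
    split_ifs
    exacts [Or.inr rfl, Or.inl rfl]

variable [Finite σ] [Finite τ]

theorem mem_pow (n : ℕ) : ∀ f : MvPowerSeries σ R, (∀ d, d.degree < n → coeff d f = 0) →
    f ∈ IX σ R ^ n := by
  have := Fintype.ofFinite σ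
  induction n with
  | zero => simp
  | succ n ih =>
    intro f hf
    obtain ⟨g, h1, h2⟩ := decomp f
    rw [h1, ← coeff_zero_eq_constantCoeff_apply, hf 0 (by simp), map_zero, zero_add, pow_succ']
    refine Ideal.sum_mem _ fun i _ => Ideal.mul_mem_mul (X_mem i) (ih _ fun d hd => ?_)
    refine (h2 i d).elim id fun e => e.trans (hf _ ?_)
    simpa using hd

theorem mem_IX {f : MvPowerSeries σ R} : f ∈ IX σ R ↔ constantCoeff f = 0 := by
  refine ⟨fun h => (Ideal.span_le (I := RingHom.ker constantCoeff)).2 ?_ h, fun h => ?_⟩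
  · rintro _ ⟨i, rfl⟩
    exact constantCoeff_X i
  · rw [← pow_one (IX σ R)]
    refine mem_pow 1 f fun d hd => ?_
    rw [(degree_eq_zero_iff d).1 (Nat.lt_one_iff.1 hd), coeff_zero_eq_constantCoeff_apply, h]

theorem sub_trunc_mem (n : ℕ) (f : MvPowerSeries σ R) :
    f - (truncTotal n f : MvPolynomial σ R) ∈ IX σ R ^ n :=
  mem_pow n _ fun d hd => by rw [map_sub, MvPolynomial.coeff_coe, coeff_truncTotal _ hd, sub_self]

omit [Finite σ] in
theorem map_mem_pow {J : Ideal S} (E : MvPowerSeries σ R →+* S) (h : ∀ i, E (X i) ∈ J) {n : ℕ}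
    {f : MvPowerSeries σ R} (hf : f ∈ IX σ R ^ n) : E f ∈ J ^ n := by
  refine Ideal.pow_right_mono (I := (IX σ R).map E) ?_ n
    (Ideal.map_pow E _ n ▸ Ideal.mem_map_of_mem E hf)
  rw [Ideal.map_span, Ideal.span_le]
  rintro _ ⟨_, ⟨i, rfl⟩, rfl⟩
  exact h i

theorem eq_of_mem (J : Ideal S) [IsHausdorff J S] {a b : S} (h : ∀ n, a - b ∈ J ^ n) : a = b :=
  sub_eq_zero.1 (IsHausdorff.haus ‹_› _ fun n => by simpa [SModEq.zero] using h n)

/-- uniqueness of evaluations -/
theorem hom_ext (J : Ideal S) [IsHausdorff J S] {E E' : MvPowerSeries σ R →+* S}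
    (hC : ∀ r, E (C r) = E' (C r)) (hX : ∀ i, E (X i) = E' (X i)) (h : ∀ i, E (X i) ∈ J) :
    E = E' := by
  have h1 : E.comp MvPolynomial.coeToMvPowerSeries.ringHom =
      E'.comp MvPolynomial.coeToMvPowerSeries.ringHom :=
    MvPolynomial.ringHom_ext (fun r => by simpa using hC r) fun i => by simpa using hX i
  refine RingHom.ext fun f => eq_of_mem J fun n => ?_
  have h2 : E (truncTotal n f : MvPolynomial σ R) = E' (truncTotal n f : MvPolynomial σ R) :=
    RingHom.congr_fun h1 _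
  have h3 := sub_mem (map_mem_pow E h (sub_trunc_mem n f))
    (map_mem_pow E' (fun i => hX i ▸ h i) (sub_trunc_mem n f))
  rwa [map_sub, map_sub, h2, sub_sub_sub_cancel_right] at h3

omit [Finite σ] in
theorem pow_le {J : Ideal S} (φ : R →+* S) {y : σ → S} (h : ∀ i, y i ∈ J) (n : ℕ) :
    MvPolynomial.idealOfVars σ R ^ n ≤ (J ^ n).comap (MvPolynomial.eval₂Hom φ y) := by
  rw [← Ideal.map_le_iff_le_comap, Ideal.map_pow]
  refine Ideal.pow_right_mono ?_ n
  rw [Ideal.map_span, Ideal.span_le]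
  rintro _ ⟨_, ⟨i, rfl⟩, rfl⟩
  simpa using h i

/-- evaluation modulo `J ^ n` -/
noncomputable def evn {J : Ideal S} (φ : R →+* S) {y : σ → S} (h : ∀ i, y i ∈ J) (n : ℕ) :
    MvPowerSeries σ R →+* S ⧸ J ^ n :=
  (Ideal.quotientMap (J ^ n) _ (pow_le φ h n)).comp (truncTotalAlgHom σ R n).toRingHom

theorem evn_compat {J : Ideal S} (φ : R →+* S) {y : σ → S} (h : ∀ i, y i ∈ J) {m n : ℕ}
    (hle : m ≤ n) : (Ideal.Quotient.factorPow J hle).comp (evn φ h n) = evn φ h m :=
  RingHom.ext fun f => (Ideal.Quotient.eq (I := J ^ m)).2 (by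
    rw [← map_sub]
    exact pow_le φ h m (truncTotal_sub_truncTotal_mem_pow_idealOfVars hle le_rfl f))

open Classical in
/-- evaluation at a family of elements of `J` -/
noncomputable def ev (J : Ideal S) [IsAdicComplete J S] (φ : R →+* S) (y : σ → S) :
    MvPowerSeries σ R →+* S :=
  if h : ∀ i, y i ∈ J then IsAdicComplete.liftRingHom J (evn φ h) (evn_compat φ h)
  else φ.comp constantCoeff

variable {J : Ideal S} [IsAdicComplete J S] {J' : Ideal S'} [IsAdicComplete J' S'] (φ : R →+* S)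
  {y : σ → S}

theorem ev_sub_mem (h : ∀ i, y i ∈ J) (n : ℕ) (f : MvPowerSeries σ R) :
    ev J φ y f - MvPolynomial.eval₂ φ y (truncTotal n f) ∈ J ^ n := by
  rw [← Ideal.Quotient.eq, ev, dif_pos h]
  exact IsAdicComplete.mk_liftRingHom J _ (evn_compat φ h) n f

theorem ev_coe (h : ∀ i, y i ∈ J) (p : MvPolynomial σ R) :
    ev J φ y (p : MvPowerSeries σ R) = MvPolynomial.eval₂ φ y p := by
  refine eq_of_mem J fun n => ?_
  have h1 : truncTotal n (p : MvPowerSeries σ R) - p ∈ MvPolynomial.idealOfVars σ R ^ n :=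
    (MvPolynomial.mem_pow_idealOfVars_iff' ..).2 fun x hx => by simp [coeff_truncTotal _ hx]
  have h2 := add_mem (ev_sub_mem φ h n p) (pow_le φ h n h1)
  rwa [map_sub, MvPolynomial.coe_eval₂Hom, sub_add_sub_cancel] at h2

theorem ev_X (h : ∀ i, y i ∈ J) (i : σ) : ev J φ y (X i) = y i := by
  rw [← MvPolynomial.coe_X, ev_coe φ h, MvPolynomial.eval₂_X]

@[simp] theorem ev_C (r : R) : ev J φ y (C r) = φ r := by
  by_cases h : ∀ i, y i ∈ J
  · rw [← MvPolynomial.coe_C, ev_coe φ h, MvPolynomial.eval₂_C]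
  · rw [ev, dif_neg h, RingHom.comp_apply, constantCoeff_C]

theorem ev_mem_pow (h : ∀ i, y i ∈ J) {n : ℕ} {f : MvPowerSeries σ R} (hf : f ∈ IX σ R ^ n) :
    ev J φ y f ∈ J ^ n := map_mem_pow _ (fun i => (ev_X φ h i).symm ▸ h i) hf

theorem ev_mem (h : ∀ i, y i ∈ J) {f : MvPowerSeries σ R} (hf : constantCoeff f = 0) :
    ev J φ y f ∈ J := by
  simpa using ev_mem_pow φ h (n := 1) (by simpa using mem_IX.2 hf)

theorem ev_sub_const (h : ∀ i, y i ∈ J) (f : MvPowerSeries σ R) :
    ev J φ y f - φ (constantCoeff f) ∈ J := by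
  rw [← ev_C (J := J) (y := y) φ, ← map_sub]
  exact ev_mem φ h (by simp)

/-- a homomorphism which sends the variables to `J` is the evaluation -/
theorem eq_ev (E : MvPowerSeries σ R →+* S) (hC : ∀ r, E (C r) = φ r) (hX : ∀ i, E (X i) = y i)
    (h : ∀ i, y i ∈ J) (f : MvPowerSeries σ R) : E f = ev J φ y f :=
  RingHom.congr_fun (hom_ext J (fun r => by rw [hC, ev_C]) (fun i => by rw [hX, ev_X φ h])
    fun i => hX i ▸ h i) f

theorem comp_ev (Φ : S →+* S') (h : ∀ i, y i ∈ J) (h' : ∀ i, Φ (y i) ∈ J')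
    (f : MvPowerSeries σ R) : Φ (ev J φ y f) = ev J' (Φ.comp φ) (fun i => Φ (y i)) f :=
  eq_ev _ (Φ.comp (ev J φ y)) (fun r => by simp) (fun i => by simp [ev_X φ h]) h' f

theorem ev_map (ψ : R' →+* R) (h : ∀ i, y i ∈ J) (f : MvPowerSeries σ R') :
    ev J φ y (map ψ f) = ev J (φ.comp ψ) y f :=
  eq_ev _ ((ev J φ y).comp (map ψ)) (fun r => by simp) (fun i => by simp [ev_X φ h]) h f

theorem ev_subst (h : ∀ i, y i ∈ J) {a : τ → MvPowerSeries σ R}
    (ha : ∀ s, constantCoeff (a s) = 0) (f : MvPowerSeries τ R) :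
    ev J φ y (subst a f) = ev J φ (fun s => ev J φ y (a s)) f := by
  have h1 := hasSubst_of_constantCoeff_zero ha
  rw [← substAlgHom_apply h1]
  exact eq_ev _ ((ev J φ y).comp (substAlgHom h1).toRingHom)
    (fun r => by simp [subst_C]) (fun i => by simp [subst_X h1])
    (fun s => ev_mem φ h (ha s)) f

theorem ev_zero (f : MvPowerSeries σ R) : ev J φ (fun _ => 0) f = φ (constantCoeff f) :=
  (eq_ev φ (φ.comp constantCoeff) (fun r => by simp) (fun i => by simp) (fun _ => J.zero_mem) f).symm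

/-! ### one variable -/

/-- evaluation at an element of `J` -/
noncomputable def ev1 (J : Ideal S) [IsAdicComplete J S] (φ : R →+* S) (x : S) :
    PowerSeries R →+* S := ev J φ fun _ : Unit => x

variable {x : S}

theorem ev1_X (h : x ∈ J) : ev1 J φ x PowerSeries.X = x := ev_X φ (fun _ => h) ()

@[simp] theorem ev1_C (r : R) : ev1 J φ x (PowerSeries.C r) = φ r := ev_C φ r

theorem ev1_coe (h : x ∈ J) (p : Polynomial R) :
    ev1 J φ x (p : PowerSeries R) = p.eval₂ φ x :=
  RingHom.congr_fun (Polynomial.ringHom_ext (f := (ev1 J φ x).comp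
    Polynomial.coeToPowerSeries.ringHom) (g := Polynomial.eval₂RingHom φ x)
    (fun r => by simp) (by simp [ev1_X φ h])) p

theorem ev1_mem (h : x ∈ J) {f : PowerSeries R} (hf : PowerSeries.constantCoeff f = 0) :
    ev1 J φ x f ∈ J := ev_mem φ (fun _ => h) hf

theorem ev1_sub_const (h : x ∈ J) (f : PowerSeries R) :
    ev1 J φ x f - φ (PowerSeries.constantCoeff f) ∈ J := ev_sub_const φ (fun _ => h) f

theorem comp_ev1 (Φ : S →+* S') (h : x ∈ J) (h' : Φ x ∈ J') (f : PowerSeries R) :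
    Φ (ev1 J φ x f) = ev1 J' (Φ.comp φ) (Φ x) f := comp_ev φ Φ (fun _ => h) (fun _ => h') f

theorem ev1_map (ψ : R' →+* R) (h : x ∈ J) (f : PowerSeries R') :
    ev1 J φ x (PowerSeries.map ψ f) = ev1 J (φ.comp ψ) x f := ev_map φ ψ (fun _ => h) f

theorem ev_subst1 (h : ∀ i, y i ∈ J) {a : MvPowerSeries σ R} (ha : constantCoeff a = 0)
    (f : PowerSeries R) : ev J φ y (PowerSeries.subst a f) = ev1 J φ (ev J φ y a) f :=
  ev_subst φ h (fun _ => ha) f

theorem ev1_subst1 (h : x ∈ J) {a : PowerSeries R} (ha : PowerSeries.constantCoeff a = 0)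
    (f : PowerSeries R) : ev1 J φ x (PowerSeries.subst a f) = ev1 J φ (ev1 J φ x a) f :=
  ev_subst1 φ (fun _ => h) ha f

theorem ev1_zero (f : PowerSeries R) : ev1 J φ 0 f = φ (PowerSeries.constantCoeff f) :=
  ev_zero φ f

end Vale.Agent.P261Z.Ev
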